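import Vale.Agent.P139.BCk

namespace Vale.Agent.P139.Ck

theorem cX0a : cover (tX 5 2974248075264 67108864)
    (.y (.l 3) (.y (.l 3) (.l 7)))
    (Int.ofNat 0) (Int.ofNat 2748779069440)
    (Int.negSucc 10995116277759) (Int.negSucc 2199023255551) = true := by
  decide +kernel

theorem cX0b : cover (tX 5 2974248075264 67108864)
    (.x (.y (.x (.y (.x (.y (.x (.y (.x (.l 7) (.l 7)) (.l 7)) (.y (.l 7) (.l 6))) (.x (.y (.l 7)
    (.l 6)) (.l 7))) (.y (.x (.l 8) (.l 6)) (.l 7))) (.x (.y (.l 8) (.l 7)) (.l 10))) (.y (.x (.y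
    (.l 5) (.l 5)) (.l 5)) (.l 6))) (.x (.y (.l 10) (.l 7)) (.l 7))) (.y (.l 6) (.l 5)))
    (Int.ofNat 0) (Int.ofNat 2748779069440)
    (Int.ofNat 1649267441664) (Int.ofNat 4398046511104) = true := by
  decide +kernel

theorem cX1a : cover (tX 6 2974248075264 67108864)
    (.y (.l 3) (.y (.l 3) (.x (.y (.l 4) (.l 7)) (.l 4))))
    (Int.ofNat 549755813888) (Int.ofNat 3298534883328)
    (Int.negSucc 13194139533311) (Int.negSucc 2199023255551) = true := by
  decide +kernel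

theorem cX1b : cover (tX 6 2974248075264 67108864)
    (.x (.y (.x (.y (.x (.y (.x (.y (.l 6) (.l 6)) (.l 7)) (.l 8)) (.y (.l 6) (.l 6))) (.x (.y (.l
    7) (.l 6)) (.l 7))) (.y (.l 6) (.l 5))) (.x (.y (.l 8) (.l 7)) (.l 7))) (.y (.l 5) (.l 4)))
    (Int.ofNat 549755813888) (Int.ofNat 3298534883328)
    (Int.ofNat 1649267441664) (Int.ofNat 4398046511104) = true := by
  decide +kernel

theorem cX2a : cover (tX 7 2974248075264 67108864)
    (.y (.l 4) (.y (.l 4) (.y (.l 5) (.x (.y (.l 6) (.x (.y (.l 6) (.x (.y (.l 6) (.x (.l 7) (.l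
    6))) (.l 5))) (.l 5))) (.l 4)))))
    (Int.ofNat 1099511627776) (Int.ofNat 3848290697216)
    (Int.negSucc 15393162788863) (Int.negSucc 2199023255551) = true := by
  decide +kernel

theorem cX2b : cover (tX 7 2974248075264 67108864)
    (.x (.y (.x (.y (.x (.y (.l 7) (.l 6)) (.l 7)) (.l 10)) (.y (.l 5) (.l 5))) (.x (.y (.l 7) (.l
    7)) (.l 6))) (.y (.l 4) (.l 4)))
    (Int.ofNat 1099511627776) (Int.ofNat 3848290697216)
    (Int.ofNat 1649267441664) (Int.ofNat 4398046511104) = true := by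
  decide +kernel

theorem cX3 : cover (tX 8 2974248075264 67108864)
    (.y (.l 6) (.y (.y (.l 4) (.l 6)) (.y (.x (.y (.x (.l 8) (.l 5)) (.x (.y (.x (.y (.l 6) (.l
    7)) (.l 6)) (.x (.y (.x (.l 8) (.l 6)) (.x (.y (.l 7) (.l 7)) (.l 7))) (.l 7))) (.l 7))) (.l
    5)) (.x (.y (.x (.y (.x (.y (.x (.y (.l 7) (.l 7)) (.l 7)) (.x (.l 12) (.l 6))) (.y (.l 6) (.l
    6))) (.x (.y (.x (.l 7) (.l 6)) (.x (.l 7) (.l 6))) (.y (.l 6) (.l 6)))) (.y (.l 5) (.l 5)))
    (.x (.y (.x (.y (.x (.l 6) (.l 6)) (.x (.l 6) (.l 6))) (.l 7)) (.x (.y (.x (.l 6) (.l 6)) (.x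
    (.l 6) (.l 6))) (.l 6))) (.y (.l 5) (.l 5)))) (.y (.l 4) (.l 4))))))
    (Int.ofNat 1649267441664) (Int.ofNat 4398046511104)
    (Int.negSucc 17592186044415) (Int.ofNat 0) = true := by
  decide +kernel

theorem cX4 : cover (tX 9 2974248075264 67108864)
    (.y (.l 7) (.y (.y (.l 4) (.l 7)) (.y (.x (.y (.x (.y (.l 6) (.l 7)) (.l 5)) (.x (.y (.l 8)
    (.l 10)) (.l 6))) (.l 5)) (.x (.y (.x (.y (.x (.l 7) (.l 6)) (.x (.l 8) (.l 6))) (.l 6)) (.x
    (.y (.x (.y (.l 6) (.l 6)) (.l 6)) (.x (.y (.l 6) (.l 6)) (.l 6))) (.l 6))) (.y (.l 4) (.l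
    4))))))
    (Int.ofNat 2199023255552) (Int.ofNat 4947802324992)
    (Int.negSucc 19791209299967) (Int.ofNat 0) = true := by
  decide +kernel

theorem cX5 : cover (tX 10 2974248075264 67108864)
    (.y (.l 8) (.y (.y (.l 5) (.l 10)) (.y (.x (.y (.l 10) (.x (.y (.l 7) (.l 7)) (.l 6))) (.l 6))
    (.x (.y (.x (.y (.l 7) (.l 7)) (.l 6)) (.x (.y (.l 7) (.l 7)) (.l 6))) (.l 6)))))
    (Int.ofNat 2748779069440) (Int.ofNat 5497558138880)
    (Int.negSucc 21990232555519) (Int.ofNat 0) = true := by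
  decide +kernel

theorem cX6 : cover (tX 11 2974248075264 67108864)
    (.y (.l 10) (.y (.y (.l 5) (.l 10)) (.y (.y (.l 8) (.x (.l 8) (.l 4))) (.y (.x (.y (.l 7) (.l
    7)) (.l 4)) (.x (.y (.l 7) (.l 7)) (.l 4))))))
    (Int.ofNat 3298534883328) (Int.ofNat 6047313952768)
    (Int.negSucc 24189255811071) (Int.ofNat 0) = true := by
  decide +kernel

theorem cX7 : cover (tX 12 2974248075264 67108864)
    (.y (.l 12) (.y (.y (.l 6) (.l 10)) (.y (.y (.l 7) (.l 8)) (.y (.x (.l 8) (.l 4)) (.x (.y (.l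
    6) (.l 6)) (.l 4))))))
    (Int.ofNat 3848290697216) (Int.ofNat 6597069766656)
    (Int.negSucc 26388279066623) (Int.ofNat 0) = true := by
  decide +kernel

theorem cX8 : cover (tX 13 2974248075264 67108864)
    (.y (.l 16) (.y (.y (.l 7) (.l 10)) (.y (.y (.l 7) (.l 7)) (.y (.l 8) (.l 8)))))
    (Int.ofNat 4398046511104) (Int.ofNat 7146825580544)
    (Int.negSucc 28587302322175) (Int.ofNat 0) = true := by
  decide +kernel

theorem cX9 : cover (tX 14 2974248075264 67108864)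
    (.y (.y (.l 5) (.l 8)) (.y (.y (.l 7) (.l 10)) (.y (.y (.l 7) (.l 7)) (.y (.l 7) (.l 7)))))
    (Int.ofNat 4947802324992) (Int.ofNat 7696581394432)
    (Int.negSucc 30786325577727) (Int.ofNat 0) = true := by
  decide +kernel

theorem cX10 : cover (tX 15 2974248075264 67108864)
    (.y (.y (.l 5) (.l 10)) (.y (.y (.l 8) (.l 10)) (.y (.y (.l 7) (.l 7)) (.y (.l 7) (.l 7)))))
    (Int.ofNat 5497558138880) (Int.ofNat 8246337208320)
    (Int.negSucc 32985348833279) (Int.ofNat 0) = true := by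
  decide +kernel

theorem cX11 : cover (tX 16 2974248075264 67108864)
    (.y (.y (.l 6) (.l 12)) (.y (.y (.l 8) (.l 10)) (.y (.l 12) (.y (.l 7) (.l 7)))))
    (Int.ofNat 6047313952768) (Int.ofNat 8796093022208)
    (Int.negSucc 35184372088831) (Int.ofNat 0) = true := by
  decide +kernel

theorem cX12 : cover (tX 17 2974248075264 67108864)
    (.y (.y (.l 7) (.l 12)) (.y (.y (.l 10) (.l 10)) (.y (.l 12) (.y (.l 7) (.l 7)))))
    (Int.ofNat 6597069766656) (Int.ofNat 9345848836096)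
    (Int.negSucc 37383395344383) (Int.ofNat 0) = true := by
  decide +kernel

theorem cX13 : cover (tX 18 2974248075264 67108864)
    (.y (.y (.l 8) (.l 14)) (.y (.y (.l 10) (.l 10)) (.y (.l 12) (.y (.l 7) (.l 7)))))
    (Int.ofNat 7146825580544) (Int.ofNat 9895604649984)
    (Int.negSucc 39582418599935) (Int.ofNat 0) = true := by
  decide +kernel

theorem cX14 : cover (tX 19 2974248075264 67108864)
    (.y (.y (.l 10) (.l 16)) (.y (.y (.l 10) (.l 10)) (.y (.l 12) (.y (.l 7) (.l 7)))))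
    (Int.ofNat 7696581394432) (Int.ofNat 10445360463872)
    (Int.negSucc 41781441855487) (Int.ofNat 0) = true := by
  decide +kernel

theorem cX15 : cover (tX 20 2974248075264 67108864)
    (.y (.y (.l 10) (.l 20)) (.y (.y (.l 10) (.l 10)) (.y (.l 12) (.y (.l 7) (.l 7)))))
    (Int.ofNat 8246337208320) (Int.ofNat 10995116277760)
    (Int.negSucc 43980465111039) (Int.ofNat 0) = true := by
  decide +kernel

theorem cX16 : cover (tX 21 2974248075264 67108864)
    (.y (.y (.l 12) (.l 20)) (.y (.y (.l 10) (.l 10)) (.y (.l 12) (.y (.l 7) (.l 7)))))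
    (Int.ofNat 8796093022208) (Int.ofNat 11544872091648)
    (Int.negSucc 46179488366591) (Int.ofNat 0) = true := by
  decide +kernel

theorem cX17 : cover (tX 22 2974248075264 67108864)
    (.y (.y (.l 12) (.l 20)) (.y (.y (.l 10) (.l 10)) (.y (.l 12) (.y (.l 7) (.l 7)))))
    (Int.ofNat 9345848836096) (Int.ofNat 12094627905536)
    (Int.negSucc 48378511622143) (Int.ofNat 0) = true := by
  decide +kernel

theorem cX18 : cover (tX 23 2974248075264 67108864)
    (.y (.y (.l 14) (.l 20)) (.y (.y (.l 10) (.l 10)) (.y (.l 12) (.y (.l 7) (.l 7)))))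
    (Int.ofNat 9895604649984) (Int.ofNat 12644383719424)
    (Int.negSucc 50577534877695) (Int.ofNat 0) = true := by
  decide +kernel

theorem cX19 : cover (tX 24 2974248075264 67108864)
    (.y (.y (.l 14) (.l 20)) (.y (.y (.l 10) (.l 12)) (.y (.l 12) (.y (.l 7) (.l 7)))))
    (Int.ofNat 10445360463872) (Int.ofNat 13194139533312)
    (Int.negSucc 52776558133247) (Int.ofNat 0) = true := by
  decide +kernel

theorem cX20 : cover (tX 25 2974248075264 67108864)
    (.y (.y (.l 16) (.l 20)) (.y (.y (.l 12) (.l 12)) (.y (.l 12) (.y (.l 7) (.l 7)))))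
    (Int.ofNat 10995116277760) (Int.ofNat 13743895347200)
    (Int.negSucc 54975581388799) (Int.ofNat 0) = true := by
  decide +kernel

theorem cX21 : cover (tX 26 2974248075264 67108864)
    (.y (.y (.l 20) (.y (.l 10) (.l 10))) (.y (.y (.l 12) (.l 12)) (.y (.l 12) (.y (.l 8) (.l
    7)))))
    (Int.ofNat 11544872091648) (Int.ofNat 14293651161088)
    (Int.negSucc 57174604644351) (Int.ofNat 0) = true := by
  decide +kernel

theorem cX22 : cover (tX 27 2974248075264 67108864)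
    (.y (.y (.l 20) (.y (.l 10) (.l 12))) (.y (.y (.l 12) (.l 12)) (.y (.l 12) (.y (.l 8) (.l
    8)))))
    (Int.ofNat 12094627905536) (Int.ofNat 14843406974976)
    (Int.negSucc 59373627899903) (Int.ofNat 0) = true := by
  decide +kernel

theorem cX23 : cover (tX 28 2974248075264 67108864)
    (.y (.y (.l 20) (.y (.l 12) (.l 12))) (.y (.y (.l 12) (.l 12)) (.y (.l 12) (.y (.l 8) (.l
    8)))))
    (Int.ofNat 12644383719424) (Int.ofNat 15393162788864)
    (Int.negSucc 61572651155455) (Int.ofNat 0) = true := by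
  decide +kernel

theorem cX24 : cover (tX 29 2974248075264 67108864)
    (.y (.y (.l 20) (.y (.l 12) (.l 12))) (.y (.y (.l 12) (.l 12)) (.y (.l 12) (.y (.l 8) (.l
    8)))))
    (Int.ofNat 13194139533312) (Int.ofNat 15942918602752)
    (Int.negSucc 63771674411007) (Int.ofNat 0) = true := by
  decide +kernel

theorem cFf1a : cover (tF (Int.negSucc 3298534883327) (Int.negSucc 5497558138879) (Int.ofNat 0))
    (.x (.x (.x (.l 14) (.l 14)) (.x (.l 14) (.l 16))) (.x (.x (.l 20) (.x (.l 8) (.l 8))) (.x (.x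
    (.l 8) (.l 8)) (.x (.l 8) (.l 8)))))
    (Int.ofNat 368025010176) (Int.ofNat 368159227904)
    (Int.ofNat 2974180966400) (Int.ofNat 2974180966400) = true := by
  decide +kernel

theorem cFf1b : cover (tF (Int.ofNat 3298534883328) (Int.ofNat 5497558138880) (Int.ofNat 0))
    (.x (.x (.x (.x (.l 10) (.l 10)) (.x (.l 10) (.l 10))) (.x (.x (.l 10) (.l 10)) (.x (.l 10)
    (.l 10)))) (.x (.x (.x (.l 10) (.l 10)) (.x (.l 10) (.l 10))) (.x (.x (.l 10) (.l 10)) (.x (.l
    10) (.l 10)))))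
    (Int.ofNat 368025010176) (Int.ofNat 368159227904)
    (Int.ofNat 2974315184128) (Int.ofNat 2974315184128) = true := by
  decide +kernel

theorem cFf2a : cover (tF (Int.ofNat 0) (Int.ofNat 1099511627776) (Int.ofNat 0))
    (.y (.y (.y (.y (.l 10) (.l 10)) (.y (.l 10) (.l 10))) (.y (.y (.l 10) (.l 10)) (.y (.l 10)
    (.l 10)))) (.y (.y (.y (.l 10) (.l 10)) (.y (.l 10) (.l 10))) (.y (.y (.l 10) (.l 10)) (.y (.l
    10) (.l 10)))))
    (Int.ofNat 368025010176) (Int.ofNat 368025010176)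
    (Int.ofNat 2974180966400) (Int.ofNat 2974315184128) = true := by
  decide +kernel

theorem cFf2b : cover (tF (Int.ofNat 0) (Int.negSucc 1099511627775) (Int.ofNat 0))
    (.y (.y (.y (.y (.l 8) (.l 8)) (.y (.l 8) (.l 8))) (.y (.y (.l 8) (.l 8)) (.y (.l 8) (.l 8))))
    (.y (.y (.y (.l 8) (.l 8)) (.y (.l 8) (.l 8))) (.y (.y (.l 8) (.l 8)) (.y (.l 8) (.l 8)))))
    (Int.ofNat 368159227904) (Int.ofNat 368159227904)
    (Int.ofNat 2974180966400) (Int.ofNat 2974315184128) = true := by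
  decide +kernel

theorem cFune : cover (tF (Int.ofNat 0) (Int.ofNat 1099511627776) (Int.ofNat 549755813888))
    (.l 3)
    (Int.ofNat 368025010176) (Int.ofNat 368159227904)
    (Int.ofNat 2954937499648) (Int.ofNat 2972117368832) = true := by
  decide +kernel

theorem cFmono : cover (tF (Int.ofNat 1099511627776) (Int.ofNat 0) (Int.ofNat 0))
    (.y (.y (.y (.y (.y (.y (.y (.l 4) (.l 3)) (.l 6)) (.y (.l 4) (.l 3))) (.y (.y (.l 3) (.l 3))
    (.l 4))) (.y (.y (.l 3) (.l 3)) (.y (.l 3) (.l 3)))) (.y (.y (.l 4) (.l 3)) (.y (.l 3) (.l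
    3)))) (.y (.y (.y (.l 3) (.l 3)) (.l 3)) (.y (.l 3) (.l 3))))
    (Int.ofNat 368025010176) (Int.ofNat 368159227904)
    (Int.ofNat 3023656976384) (Int.ofNat 4398046511104) = true := by
  decide +kernel

end Vale.Agent.P139.Ck
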