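import Vale.Agent.P139.BCk

namespace Vale.Agent.P139.Ck

/-- shifts of the linear factors -/
def rt0 : List (Int × Int) :=
  [(Int.ofNat 0, Int.ofNat 0),
    (Int.negSucc 1099511627775, Int.ofNat 0),
    (Int.ofNat 549755813888, Int.ofNat 0),
    (Int.ofNat 549755813888, Int.ofNat 0),
    (Int.ofNat 2199023255552, Int.ofNat 0)]

theorem cD0a : cover (tD 0 2974248075264 67108864 368092119040 67108864 rt0)
    (.y (.y (.y (.y (.y (.l 4) (.l 4)) (.y (.l 4) (.l 4))) (.y (.y (.l 4) (.l 4)) (.y (.l 4) (.l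
    4)))) (.y (.y (.y (.l 4) (.l 5)) (.y (.l 5) (.l 6))) (.y (.y (.y (.l 4) (.l 4)) (.y (.l 4) (.l
    4))) (.y (.y (.l 4) (.l 4)) (.y (.l 4) (.l 4)))))) (.y (.y (.y (.y (.y (.l 4) (.l 4)) (.y (.l
    4) (.l 4))) (.y (.y (.l 4) (.l 4)) (.y (.l 4) (.l 4)))) (.y (.y (.y (.l 4) (.l 5)) (.y (.l 5)
    (.y (.l 4) (.l 4)))) (.y (.y (.y (.l 4) (.l 3)) (.y (.l 3) (.l 3))) (.y (.y (.l 3) (.l 3)) (.y
    (.l 3) (.l 3)))))) (.y (.y (.y (.y (.y (.l 3) (.l 3)) (.y (.l 3) (.l 3))) (.y (.y (.l 3) (.l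
    3)) (.y (.l 3) (.l 3)))) (.y (.y (.y (.l 3) (.l 3)) (.y (.l 3) (.l 4))) (.y (.y (.l 4) (.l 4))
    (.y (.l 4) (.l 4))))) (.y (.y (.y (.y (.l 4) (.l 4)) (.y (.l 4) (.l 4))) (.y (.y (.l 4) (.l
    5)) (.y (.l 6) (.y (.l 4) (.l 4))))) (.y (.y (.y (.y (.l 4) (.l 4)) (.y (.l 4) (.l 4))) (.y
    (.y (.l 4) (.l 4)) (.y (.l 4) (.l 4)))) (.y (.y (.y (.l 4) (.l 4)) (.y (.l 4) (.l 4))) (.y (.y
    (.l 4) (.l 4)) (.y (.l 4) (.l 4)))))))))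
    (Int.negSucc 137438953471) (Int.negSucc 137438953471)
    (Int.negSucc 2199023255551) (Int.ofNat 0) = true := by
  decide +kernel

theorem cD0b : cover (tD 0 2974248075264 67108864 368092119040 67108864 rt0)
    (.y (.y (.y (.y (.y (.y (.y (.y (.l 4) (.l 4)) (.y (.l 4) (.l 4))) (.y (.y (.l 4) (.l 4)) (.y
    (.l 4) (.l 4)))) (.y (.y (.y (.l 4) (.l 4)) (.y (.l 4) (.l 4))) (.y (.y (.l 4) (.l 4)) (.y (.l
    4) (.l 4))))) (.y (.y (.y (.y (.l 4) (.l 4)) (.l 6)) (.y (.l 5) (.l 4))) (.y (.y (.l 4) (.l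
    4)) (.y (.l 4) (.l 4))))) (.y (.y (.y (.y (.l 4) (.l 4)) (.y (.l 4) (.l 4))) (.y (.y (.l 4)
    (.l 3)) (.y (.l 3) (.l 3)))) (.y (.y (.y (.l 3) (.l 3)) (.y (.l 3) (.l 3))) (.y (.y (.l 3) (.l
    3)) (.y (.l 3) (.l 3)))))) (.y (.y (.y (.y (.y (.l 3) (.l 3)) (.y (.l 3) (.l 3))) (.y (.y (.l
    3) (.l 3)) (.y (.l 3) (.l 4)))) (.y (.y (.y (.l 4) (.l 4)) (.l 5)) (.y (.l 5) (.l 4)))) (.y
    (.y (.y (.l 4) (.l 4)) (.y (.l 4) (.l 4))) (.y (.y (.l 4) (.l 4)) (.y (.l 4) (.l 4)))))) (.y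
    (.y (.y (.y (.y (.l 4) (.l 4)) (.y (.l 4) (.l 4))) (.y (.y (.l 4) (.l 4)) (.y (.l 4) (.l 4))))
    (.y (.y (.l 6) (.l 5)) (.y (.l 5) (.l 4)))) (.y (.y (.y (.l 4) (.l 4)) (.y (.l 4) (.l 4))) (.y
    (.y (.l 4) (.l 4)) (.y (.l 4) (.l 4))))))
    (Int.negSucc 137438953471) (Int.negSucc 137438953471)
    (Int.ofNat 0) (Int.ofNat 2199023255552) = true := by
  decide +kernel

theorem cD0c : cover (tD 0 2974248075264 67108864 368092119040 67108864 rt0)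
    (.y (.y (.y (.y (.l 2) (.l 2)) (.y (.l 2) (.l 2))) (.y (.y (.l 2) (.l 2)) (.y (.l 2) (.l 2))))
    (.y (.y (.y (.l 2) (.l 2)) (.y (.l 2) (.l 2))) (.y (.y (.l 2) (.l 2)) (.y (.l 2) (.l 2)))))
    (Int.ofNat 2748779069440) (Int.ofNat 2748779069440)
    (Int.negSucc 2199023255551) (Int.ofNat 2199023255552) = true := by
  decide +kernel

theorem cD0d : cover (tD 0 2974248075264 67108864 368092119040 67108864 rt0)
    (.x (.x (.x (.x (.x (.l 4) (.l 4)) (.x (.l 4) (.l 4))) (.x (.x (.l 4) (.l 3)) (.x (.l 3) (.l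
    3)))) (.x (.x (.l 6) (.l 4)) (.x (.l 4) (.l 3)))) (.x (.x (.x (.l 3) (.l 2)) (.x (.l 2) (.l
    2))) (.x (.x (.l 2) (.l 2)) (.l 5))))
    (Int.negSucc 137438953471) (Int.ofNat 2748779069440)
    (Int.negSucc 2199023255551) (Int.negSucc 2199023255551) = true := by
  decide +kernel

theorem cD0e : cover (tD 0 2974248075264 67108864 368092119040 67108864 rt0)
    (.x (.x (.x (.x (.x (.l 4) (.l 4)) (.x (.l 4) (.l 4))) (.x (.x (.l 4) (.l 3)) (.x (.l 3) (.l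
    3)))) (.x (.x (.l 6) (.l 4)) (.x (.l 4) (.l 3)))) (.x (.x (.x (.l 3) (.l 2)) (.x (.l 2) (.l
    2))) (.x (.x (.l 2) (.l 2)) (.l 5))))
    (Int.negSucc 137438953471) (Int.ofNat 2748779069440)
    (Int.ofNat 2199023255552) (Int.ofNat 2199023255552) = true := by
  decide +kernel

end Vale.Agent.P139.Ck
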