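import Vale.Agent.P139.BCk

namespace Vale.Agent.P139.Ck

/-- shifts of the linear factors -/
def rt1 : List (Int × Int) :=
  [(Int.negSucc 549755813887, Int.ofNat 0),
    (Int.ofNat 137438953472, Int.ofNat 0),
    (Int.ofNat 549755813888, Int.ofNat 0),
    (Int.ofNat 1099511627776, Int.ofNat 0),
    (Int.ofNat 1099511627776, Int.ofNat 0)]

theorem cD1a : cover (tD 1 2974248075264 67108864 368092119040 67108864 rt1)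
    (.y (.y (.y (.y (.l 6) (.y (.l 4) (.l 4))) (.y (.y (.l 4) (.l 4)) (.y (.l 4) (.l 4)))) (.y (.y
    (.y (.l 4) (.l 4)) (.y (.l 4) (.l 4))) (.y (.y (.l 4) (.l 4)) (.y (.l 5) (.l 6))))) (.y (.y
    (.y (.y (.y (.l 4) (.l 4)) (.y (.l 4) (.l 4))) (.y (.y (.l 4) (.l 4)) (.y (.l 4) (.l 4)))) (.y
    (.y (.y (.l 4) (.l 4)) (.y (.l 4) (.l 5))) (.y (.y (.l 5) (.y (.l 4) (.l 4))) (.y (.y (.l 4)
    (.l 4)) (.y (.l 4) (.l 4)))))) (.y (.y (.y (.y (.y (.l 4) (.l 4)) (.y (.l 4) (.l 4))) (.y (.y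
    (.l 4) (.l 4)) (.y (.l 5) (.l 5)))) (.y (.y (.y (.l 5) (.y (.l 4) (.l 4))) (.y (.y (.l 4) (.l
    4)) (.y (.l 4) (.l 4)))) (.y (.y (.y (.l 4) (.l 4)) (.y (.l 4) (.l 4))) (.y (.y (.l 4) (.l 4))
    (.y (.l 4) (.l 4)))))) (.y (.y (.y (.y (.y (.l 4) (.l 5)) (.y (.l 5) (.l 5))) (.y (.y (.l 5)
    (.l 5)) (.y (.l 5) (.l 6)))) (.y (.y (.y (.l 8) (.y (.l 4) (.l 4))) (.y (.y (.l 4) (.l 4)) (.y
    (.l 4) (.l 4)))) (.y (.y (.y (.l 4) (.l 4)) (.y (.l 4) (.l 4))) (.y (.y (.l 4) (.l 4)) (.y (.l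
    4) (.l 5)))))) (.y (.y (.y (.y (.y (.l 5) (.l 5)) (.y (.l 5) (.l 5))) (.y (.y (.l 5) (.l 5))
    (.y (.l 5) (.l 5)))) (.y (.y (.y (.l 5) (.l 5)) (.y (.l 5) (.l 5))) (.y (.y (.l 5) (.l 5)) (.y
    (.l 5) (.l 5))))) (.y (.y (.y (.y (.l 5) (.l 5)) (.y (.l 5) (.l 5))) (.y (.y (.l 5) (.l 5))
    (.y (.l 5) (.l 5)))) (.y (.y (.y (.l 5) (.l 5)) (.y (.l 5) (.l 5))) (.y (.y (.l 5) (.l 5)) (.y
    (.l 5) (.l 5))))))))))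
    (Int.ofNat 0) (Int.ofNat 0)
    (Int.negSucc 2199023255551) (Int.ofNat 0) = true := by
  decide +kernel

theorem cD1b : cover (tD 1 2974248075264 67108864 368092119040 67108864 rt1)
    (.y (.y (.y (.y (.y (.y (.y (.y (.y (.l 5) (.l 5)) (.y (.l 5) (.l 5))) (.y (.y (.l 5) (.l 5))
    (.y (.l 5) (.l 5)))) (.y (.y (.y (.l 5) (.l 5)) (.y (.l 5) (.l 5))) (.y (.y (.l 5) (.l 5)) (.y
    (.l 5) (.l 5))))) (.y (.y (.y (.y (.l 5) (.l 5)) (.y (.l 5) (.l 5))) (.y (.y (.l 5) (.l 5))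
    (.y (.l 5) (.l 5)))) (.y (.y (.y (.l 5) (.l 5)) (.y (.l 5) (.l 5))) (.y (.y (.l 5) (.l 5)) (.y
    (.l 5) (.l 5)))))) (.y (.y (.y (.y (.y (.l 5) (.l 4)) (.y (.l 4) (.l 4))) (.y (.y (.l 4) (.l
    4)) (.y (.l 4) (.l 4)))) (.y (.y (.y (.l 4) (.l 4)) (.y (.l 4) (.l 4))) (.y (.y (.l 4) (.l 4))
    (.l 8)))) (.y (.y (.y (.l 6) (.l 5)) (.y (.l 5) (.l 5))) (.y (.y (.l 5) (.l 5)) (.y (.l 5) (.l
    4)))))) (.y (.y (.y (.y (.y (.l 4) (.l 4)) (.y (.l 4) (.l 4))) (.y (.y (.l 4) (.l 4)) (.y (.l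
    4) (.l 4)))) (.y (.y (.y (.l 4) (.l 4)) (.y (.l 4) (.l 4))) (.y (.y (.l 4) (.l 4)) (.l 5))))
    (.y (.y (.y (.l 5) (.l 5)) (.y (.l 4) (.l 4))) (.y (.y (.l 4) (.l 4)) (.y (.l 4) (.l 4))))))
    (.y (.y (.y (.y (.y (.l 4) (.l 4)) (.y (.l 4) (.l 4))) (.y (.y (.l 4) (.l 4)) (.l 5))) (.y (.y
    (.l 5) (.l 4)) (.y (.l 4) (.l 4)))) (.y (.y (.y (.l 4) (.l 4)) (.y (.l 4) (.l 4))) (.y (.y (.l
    4) (.l 4)) (.y (.l 4) (.l 4)))))) (.y (.y (.y (.y (.l 6) (.l 5)) (.y (.l 4) (.l 4))) (.y (.y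
    (.l 4) (.l 4)) (.y (.l 4) (.l 4)))) (.y (.y (.y (.l 4) (.l 4)) (.y (.l 4) (.l 4))) (.y (.y (.l
    4) (.l 4)) (.l 6)))))
    (Int.ofNat 0) (Int.ofNat 0)
    (Int.ofNat 0) (Int.ofNat 2199023255552) = true := by
  decide +kernel

theorem cD1c : cover (tD 1 2974248075264 67108864 368092119040 67108864 rt1)
    (.y (.y (.y (.y (.l 2) (.l 2)) (.y (.l 2) (.l 2))) (.y (.y (.l 1) (.l 1)) (.y (.l 1) (.l 1))))
    (.y (.y (.y (.l 1) (.l 1)) (.y (.l 1) (.l 1))) (.y (.y (.l 2) (.l 2)) (.y (.l 2) (.l 2)))))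
    (Int.ofNat 2748779069440) (Int.ofNat 2748779069440)
    (Int.negSucc 2199023255551) (Int.ofNat 2199023255552) = true := by
  decide +kernel

theorem cD1d : cover (tD 1 2974248075264 67108864 368092119040 67108864 rt1)
    (.x (.x (.x (.x (.x (.l 4) (.l 4)) (.x (.l 4) (.l 4))) (.x (.l 6) (.l 5))) (.x (.x (.l 4) (.l
    4)) (.x (.l 3) (.l 3)))) (.x (.x (.x (.l 3) (.l 2)) (.x (.l 2) (.l 2))) (.x (.x (.l 2) (.l 2))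
    (.l 3))))
    (Int.ofNat 0) (Int.ofNat 2748779069440)
    (Int.negSucc 2199023255551) (Int.negSucc 2199023255551) = true := by
  decide +kernel

theorem cD1e : cover (tD 1 2974248075264 67108864 368092119040 67108864 rt1)
    (.x (.x (.x (.x (.x (.l 4) (.l 4)) (.x (.l 4) (.l 4))) (.x (.l 6) (.l 5))) (.x (.x (.l 4) (.l
    4)) (.x (.l 3) (.l 3)))) (.x (.x (.x (.l 3) (.l 2)) (.x (.l 2) (.l 2))) (.x (.x (.l 2) (.l 2))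
    (.l 3))))
    (Int.ofNat 0) (Int.ofNat 2748779069440)
    (Int.ofNat 2199023255552) (Int.ofNat 2199023255552) = true := by
  decide +kernel

end Vale.Agent.P139.Ck
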