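import Vale.Agent.P139.BCk

namespace Vale.Agent.P139.Ck

/-- shifts of the linear factors -/
def rt2 : List (Int × Int) :=
  [(Int.ofNat 137438953472, Int.negSucc 1030792151039),
    (Int.ofNat 137438953472, Int.ofNat 1030792151040),
    (Int.ofNat 1099511627776, Int.ofNat 0),
    (Int.ofNat 1099511627776, Int.ofNat 0),
    (Int.ofNat 2199023255552, Int.ofNat 0)]

theorem cD2a : cover (tD 2 2974248075264 67108864 368092119040 67108864 rt2)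
    (.y (.y (.y (.y (.y (.l 4) (.l 4)) (.y (.l 4) (.l 5))) (.y (.y (.l 5) (.l 5)) (.y (.l 5) (.l
    8)))) (.y (.y (.y (.y (.l 4) (.l 4)) (.y (.l 5) (.l 5))) (.y (.y (.l 5) (.l 5)) (.y (.l 5) (.l
    5)))) (.y (.y (.y (.l 6) (.y (.l 5) (.l 5))) (.y (.y (.l 5) (.l 5)) (.y (.l 5) (.l 5)))) (.y
    (.y (.y (.l 5) (.l 5)) (.y (.l 5) (.l 6))) (.y (.y (.l 8) (.y (.l 5) (.l 5))) (.y (.y (.l 5)
    (.l 5)) (.y (.l 5) (.l 5)))))))) (.y (.y (.y (.y (.y (.y (.y (.l 5) (.l 5)) (.y (.l 5) (.l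
    5))) (.y (.y (.l 5) (.l 5)) (.y (.l 5) (.l 5)))) (.y (.y (.y (.l 5) (.l 5)) (.y (.l 5) (.l
    5))) (.y (.y (.l 5) (.l 5)) (.y (.l 5) (.l 5))))) (.y (.y (.y (.y (.l 5) (.l 5)) (.y (.l 5)
    (.l 5))) (.y (.y (.l 5) (.l 5)) (.y (.l 5) (.l 5)))) (.y (.y (.y (.l 5) (.l 5)) (.y (.l 5) (.l
    5))) (.y (.y (.l 5) (.l 5)) (.y (.l 5) (.l 5)))))) (.y (.y (.y (.y (.l 8) (.l 6)) (.y (.l 5)
    (.l 5))) (.y (.y (.l 5) (.l 5)) (.y (.l 5) (.l 5)))) (.y (.y (.y (.l 5) (.l 5)) (.y (.l 4) (.l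
    4))) (.y (.y (.l 4) (.l 4)) (.y (.l 4) (.l 4)))))) (.y (.y (.y (.y (.y (.l 4) (.l 4)) (.y (.l
    4) (.l 4))) (.y (.y (.l 4) (.l 4)) (.y (.l 4) (.l 4)))) (.y (.y (.y (.l 4) (.l 4)) (.y (.l 4)
    (.l 4))) (.y (.y (.l 4) (.l 4)) (.y (.l 4) (.l 4))))) (.y (.y (.y (.y (.l 4) (.l 4)) (.y (.l
    4) (.l 4))) (.y (.y (.l 4) (.l 4)) (.y (.l 4) (.l 4)))) (.y (.y (.l 6) (.l 6)) (.y (.l 5) (.l
    5)))))))
    (Int.ofNat 0) (Int.ofNat 0)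
    (Int.negSucc 2199023255551) (Int.ofNat 0) = true := by
  decide +kernel

theorem cD2b : cover (tD 2 2974248075264 67108864 368092119040 67108864 rt2)
    (.y (.y (.y (.y (.y (.y (.l 5) (.l 5)) (.y (.l 6) (.l 6))) (.y (.y (.y (.l 4) (.l 4)) (.y (.l
    4) (.l 4))) (.y (.y (.l 4) (.l 4)) (.y (.l 4) (.l 4))))) (.y (.y (.y (.y (.l 4) (.l 4)) (.y
    (.l 4) (.l 4))) (.y (.y (.l 4) (.l 4)) (.y (.l 4) (.l 4)))) (.y (.y (.y (.l 4) (.l 4)) (.y (.l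
    4) (.l 4))) (.y (.y (.l 4) (.l 4)) (.y (.l 4) (.l 4)))))) (.y (.y (.y (.y (.y (.l 4) (.l 4))
    (.y (.l 4) (.l 4))) (.y (.y (.l 4) (.l 4)) (.y (.l 5) (.l 5)))) (.y (.y (.y (.l 5) (.l 5)) (.y
    (.l 5) (.l 5))) (.y (.y (.l 5) (.l 5)) (.y (.l 6) (.l 8))))) (.y (.y (.y (.y (.y (.l 5) (.l
    5)) (.y (.l 5) (.l 5))) (.y (.y (.l 5) (.l 5)) (.y (.l 5) (.l 5)))) (.y (.y (.y (.l 5) (.l 5))
    (.y (.l 5) (.l 5))) (.y (.y (.l 5) (.l 5)) (.y (.l 5) (.l 5))))) (.y (.y (.y (.y (.l 5) (.l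
    5)) (.y (.l 5) (.l 5))) (.y (.y (.l 5) (.l 5)) (.y (.l 5) (.l 5)))) (.y (.y (.y (.l 5) (.l 5))
    (.y (.l 5) (.l 5))) (.y (.y (.l 5) (.l 5)) (.y (.l 5) (.l 5)))))))) (.y (.y (.y (.y (.y (.y
    (.y (.l 5) (.l 5)) (.y (.l 5) (.l 5))) (.y (.y (.l 5) (.l 5)) (.l 8))) (.y (.y (.l 6) (.l 5))
    (.y (.l 5) (.l 5)))) (.y (.y (.y (.l 5) (.l 5)) (.y (.l 5) (.l 5))) (.y (.y (.l 5) (.l 5)) (.l
    6)))) (.y (.y (.y (.l 5) (.l 5)) (.y (.l 5) (.l 5))) (.y (.y (.l 5) (.l 5)) (.y (.l 4) (.l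
    4))))) (.y (.y (.y (.l 8) (.l 5)) (.y (.l 5) (.l 5))) (.y (.y (.l 5) (.l 4)) (.y (.l 4) (.l
    4))))))
    (Int.ofNat 0) (Int.ofNat 0)
    (Int.ofNat 0) (Int.ofNat 2199023255552) = true := by
  decide +kernel

theorem cD2c : cover (tD 2 2974248075264 67108864 368092119040 67108864 rt2)
    (.y (.y (.y (.y (.l 2) (.l 2)) (.y (.l 2) (.l 1))) (.y (.y (.l 1) (.l 1)) (.y (.l 1) (.l 1))))
    (.y (.y (.y (.l 1) (.l 1)) (.y (.l 1) (.l 1))) (.y (.y (.l 1) (.l 2)) (.y (.l 2) (.l 2)))))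
    (Int.ofNat 2748779069440) (Int.ofNat 2748779069440)
    (Int.negSucc 2199023255551) (Int.ofNat 2199023255552) = true := by
  decide +kernel

theorem cD2d : cover (tD 2 2974248075264 67108864 368092119040 67108864 rt2)
    (.x (.x (.x (.x (.x (.l 4) (.l 4)) (.x (.l 4) (.l 4))) (.x (.x (.l 4) (.l 4)) (.x (.l 4) (.l
    3)))) (.x (.x (.l 6) (.l 4)) (.x (.l 4) (.l 3)))) (.x (.x (.x (.l 3) (.l 3)) (.x (.l 2) (.l
    2))) (.x (.x (.l 2) (.l 2)) (.l 3))))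
    (Int.ofNat 0) (Int.ofNat 2748779069440)
    (Int.negSucc 2199023255551) (Int.negSucc 2199023255551) = true := by
  decide +kernel

theorem cD2e : cover (tD 2 2974248075264 67108864 368092119040 67108864 rt2)
    (.x (.x (.x (.x (.x (.l 4) (.l 4)) (.x (.l 4) (.l 4))) (.x (.x (.l 4) (.l 4)) (.x (.l 4) (.l
    3)))) (.x (.x (.l 6) (.l 4)) (.x (.l 4) (.l 3)))) (.x (.x (.x (.l 3) (.l 3)) (.x (.l 2) (.l
    2))) (.x (.x (.l 2) (.l 2)) (.l 3))))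
    (Int.ofNat 0) (Int.ofNat 2748779069440)
    (Int.ofNat 2199023255552) (Int.ofNat 2199023255552) = true := by
  decide +kernel

end Vale.Agent.P139.Ck
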