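import Vale.Agent.P139.Stmt

open Complex MeasureTheory Filter Topology
open scoped ComplexConjugate ContDiff

namespace Vale.Agent.P139

abbrev E := EuclideanSpace ℝ (Fin 12)
abbrev Z := Fin 12 → ℤ

/-! ### the profile -/

/-- a = 1/(2m), p = 2m+1 -/
noncomputable def aa (m : ℕ) : ℝ := 1 / (2 * (m : ℝ))

/-- self-similar profile in the variable s = r^2/4 -/
structure Prof (m : ℕ) (om : ℝ) (w : ℝ → ℂ) : Prop where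
  m_pos : 1 ≤ m
  smooth : ContDiff ℝ ∞ w
  ode : ∀ s : ℝ, 0 < s → (s : ℂ) * deriv (deriv w) s + (6 + I * s) * deriv w s
      + I * ((aa m : ℂ) - I * om) * w s = ((‖w s‖ ^ (2 * m) : ℝ) : ℂ) * w s
  ne : ∀ s : ℝ, 0 ≤ s → w s ≠ 0
  decay : ∀ k : ℕ, ∃ C : ℝ, ∀ s : ℝ, 0 ≤ s →
      ‖iteratedDeriv k w s‖ ≤ C * (1 + s) ^ (-(aa m) - k)

noncomputable def V1 (m : ℕ) (w : ℝ → ℂ) (s : ℝ) : ℂ :=
  ((m : ℂ) + 1) * (w s * conj (w s)) ^ m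

noncomputable def V2 (m : ℕ) (w : ℝ → ℂ) (s : ℝ) : ℂ :=
  (m : ℂ) * (w s * conj (w s)) ^ (m - 1) * w s ^ 2

/-- generator of time translation -/
noncomputable def Lam (m : ℕ) (om : ℝ) (w : ℝ → ℂ) (s : ℝ) : ℂ :=
  ((aa m : ℂ) - I * om) * w s + s * deriv w s

/-- radial lift -/
noncomputable def rad (g : ℝ → ℂ) (y : E) : ℂ := g (‖y‖ ^ 2 / 4)

/-! ### mode stability, PDE level -/

abbrev Co := ℂ × ℂ × (Fin 12 → ℂ)

/-- first component of the symmetry mode with coefficients β (phase, time, translations) -/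
noncomputable def mode1 (m : ℕ) (om : ℝ) (w : ℝ → ℂ) (β : Co) (y : E) : ℂ :=
  β.1 * (I * rad w y) + β.2.1 * rad (Lam m om w) y
    + ∑ j, β.2.2 j * (((y j / 2 : ℝ) : ℂ) * rad (deriv w) y)

/-- second component -/
noncomputable def mode2 (m : ℕ) (om : ℝ) (w : ℝ → ℂ) (β : Co) (y : E) : ℂ :=
  β.1 * conj (I * rad w y) + β.2.1 * conj (rad (Lam m om w) y)
    + ∑ j, β.2.2 j * conj (((y j / 2 : ℝ) : ℂ) * rad (deriv w) y)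

/-- C^16 with bounded derivatives -/
def Cb (f : E → ℂ) : Prop :=
  ContDiff ℝ 16 f ∧ ∃ C : ℝ, ∀ k ≤ 16, ∀ y, ‖iteratedFDeriv ℝ k f y‖ ≤ C

noncomputable def lap (f : E → ℂ) (y : E) : ℂ :=
  ∑ j : Fin 12, fderiv ℝ (fun x => fderiv ℝ f x (EuclideanSpace.single j 1)) y
    (EuclideanSpace.single j 1)

/-- (λ - L)(f,g) = (p,q) on R^12 -/
def PSol (m : ℕ) (om : ℝ) (w : ℝ → ℂ) (z : ℂ) (f g p q : E → ℂ) : Prop :=
  Cb f ∧ Cb g ∧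
  (∀ y, lap f y + I * (z + aa m - I * om) * f y + I / 2 * fderiv ℝ f y y
      - rad (V1 m w) y * f y - rad (V2 m w) y * g y = I * p y) ∧
  (∀ y, lap g y - I * (z + aa m + I * om) * g y - I / 2 * fderiv ℝ g y y
      - rad (V1 m w) y * g y - conj (rad (V2 m w) y) * f y = -I * q y)

def PMS (m : ℕ) (om : ℝ) (w : ℝ → ℂ) : Prop :=
  ∀ (z : ℂ) (f g : E → ℂ) (β : Co), 0 ≤ z.re →
    PSol m om w z f g (mode1 m om w β) (mode2 m om w β) →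
    ∃ γ : Co, f = mode1 m om w γ ∧ g = mode2 m om w γ

/-! ### mode stability, radial level (variable r) -/

def Cb1 (f : ℝ → ℂ) : Prop :=
  ContDiff ℝ 16 f ∧ ∃ C : ℝ, ∀ k ≤ 16, ∀ r, ‖iteratedDeriv k f r‖ ≤ C

def RSol (m : ℕ) (om : ℝ) (w : ℝ → ℂ) (l : ℕ) (z : ℂ) (f g p q : ℝ → ℂ) : Prop :=
  Cb1 f ∧ Cb1 g ∧
  (∀ r : ℝ, 0 < r → deriv (deriv f) r + 11 / r * deriv f r - l * (l + 10) / r ^ 2 * f r
      + I * (z + aa m - I * om) * f r + I * r / 2 * deriv f r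
      - V1 m w (r ^ 2 / 4) * f r - V2 m w (r ^ 2 / 4) * g r = I * p r) ∧
  (∀ r : ℝ, 0 < r → deriv (deriv g) r + 11 / r * deriv g r - l * (l + 10) / r ^ 2 * g r
      - I * (z + aa m + I * om) * g r - I * r / 2 * deriv g r
      - V1 m w (r ^ 2 / 4) * g r - conj (V2 m w (r ^ 2 / 4)) * f r = -I * q r)

/-- the three radial symmetry modes: index 0 phase (l = 0, λ = 0), 1 translation
(l = 1, λ = 1/2), 2 time (l = 0, λ = 1) -/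
noncomputable def rmode (m : ℕ) (om : ℝ) (w : ℝ → ℂ) (i : Fin 3) (r : ℝ) : ℂ :=
  ![I * w (r ^ 2 / 4), ((r / 2 : ℝ) : ℂ) * deriv w (r ^ 2 / 4), Lam m om w (r ^ 2 / 4)] i

def rl : Fin 3 → ℕ := ![0, 1, 0]

noncomputable def rz : Fin 3 → ℂ := ![0, 1 / 2, 1]

noncomputable def rsp1 (m : ℕ) (om : ℝ) (w : ℝ → ℂ) (l : ℕ) (c : Fin 3 → ℂ) (r : ℝ) : ℂ :=
  ∑ i, if rl i = l then c i * rmode m om w i r else 0

noncomputable def rsp2 (m : ℕ) (om : ℝ) (w : ℝ → ℂ) (l : ℕ) (c : Fin 3 → ℂ) (r : ℝ) : ℂ :=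
  ∑ i, if rl i = l then c i * conj (rmode m om w i r) else 0

def RadialMS (m : ℕ) (om : ℝ) (w : ℝ → ℂ) : Prop :=
  ∀ (l : ℕ) (z : ℂ) (f g : ℝ → ℂ) (c : Fin 3 → ℂ), 0 ≤ z.re →
    RSol m om w l z f g (rsp1 m om w l c) (rsp2 m om w l c) →
    ∃ c' : Fin 3 → ℂ, ∀ r : ℝ, 0 < r → f r = rsp1 m om w l c' r ∧ g r = rsp2 m om w l c' r

/-- the ladder f_(k+1) = f_k' - (l+k) f_k / r -/
noncomputable def lad (l : ℕ) : ℕ → (ℝ → ℂ) → ℝ → ℂ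
  | 0, f => f
  | k + 1, f => fun r => deriv (lad l k f) r - ((l : ℂ) + k) / r * lad l k f r

/-! ### special functions -/

noncomputable def Th (α γ : ℂ) (x : ℝ) : ℂ :=
  ∫ u in Set.Ioi (0 : ℝ), Complex.exp (-(u : ℂ)) * (u : ℂ) ^ (α - 1) * (1 + I * u * x) ^ γ

noncomputable def WW (α b : ℂ) (s : ℝ) : ℂ := (s : ℂ) ^ (-α) * Th α (b - α - 1) (1 / s)

/-- slow solution of s u'' + (b + i s) u' + i α u = 0, valid for Re α > -1 -/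
noncomputable def UU (α b : ℂ) (s : ℝ) : ℂ :=
  -I * ((b + I * s) * WW (α + 1) (b + 1) s - s * WW (α + 2) (b + 2) s)

/-- its s-derivative -/
noncomputable def dU (α b : ℂ) (s : ℝ) : ℂ := -α * WW (α + 1) (b + 1) s

/-- the limit dispersion function -/
noncomputable def DD (l : ℕ) (om s : ℝ) (z : ℂ) : ℂ :=
  dU (z + l / 2 - I * om) (l + 6) s * conj (UU (conj z + l / 2 - I * om) (l + 6) s)
    + UU (z + l / 2 - I * om) (l + 6) s * conj (dU (conj z + l / 2 - I * om) (l + 6) s)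

/-- limit spectral statement -/
structure LS (om s : ℝ) : Prop where
  nz : ∀ (l : ℕ) (z : ℂ), 0 ≤ z.re → (∀ i, ¬ (rl i = l ∧ rz i = z)) → DD l om s z ≠ 0
  simple : ∀ i, deriv (DD (rl i) om s) (rz i) ≠ 0

noncomputable def Hf (om s : ℝ) : ℂ := -s * dU (-I * om) 6 s / UU (-I * om) 6 s

/-- the certified box around (0.334776068712, 2.705068192937) -/
structure Box (o1 o2 s1 s2 : ℝ) (b1 b2 : ℂ) : Prop where
  ho1 : 0.33 ≤ o1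
  ho : o1 < o2
  ho2 : o2 ≤ 0.34
  hs1 : 2.7 ≤ s1
  hs : s1 < s2
  hs2 : s2 ≤ 2.71
  f1 : ∀ om ∈ Set.Icc o1 o2, (b1 * Hf om s1).re < 0 ∧ 0 < (b1 * Hf om s2).re
  f2 : ∀ s ∈ Set.Icc s1 s2, (b2 * Hf o1 s).re < 0 ∧ 0 < (b2 * Hf o2 s).re
  /-- Re and Im of b1, b2 pairings determine a complex number -/
  indep : (b1 * conj b2).im ≠ 0
  une : ∀ om ∈ Set.Icc o1 o2, ∀ s : ℝ, 2.7 ≤ s → UU (-I * om) 6 s ≠ 0
  mono : ∀ om ∈ Set.Icc o1 o2, ∀ s : ℝ, 2.8 ≤ s →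
    (conj (UU (-I * om) 6 s) * dU (-I * om) 6 s).re ≤ 0
  ls : ∀ om ∈ Set.Icc o1 o2, ∀ s ∈ Set.Icc s1 s2, WW (1 - I * om) 7 s = 0 → LS om s

/-! ### torus side -/

noncomputable def zE (n : Z) : E := WithLp.toLp 2 (fun i => (n i : ℝ))

noncomputable def wt (K : ℕ) (M : ℝ) (ξ : E) : ℝ := (1 + ‖ξ‖ / M) ^ K

/-- weighted Wiener norm at scale h -/
noncomputable def NN (K : ℕ) (M h : ℝ) (c : Z → ℂ) : ENNReal :=
  ∑' n, ENNReal.ofReal (wt K M (h • zE n) * ‖c n‖)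

noncomputable def conv (a b : Z → ℂ) (n : Z) : ℂ := ∑' k, a (n - k) * b k

structure Cut (χ : E → ℝ) : Prop where
  smooth : ContDiff ℝ ∞ χ
  one : ∀ x, ‖x‖ ≤ 1 → χ x = 1
  zero : ∀ x, 2 ≤ ‖x‖ → χ x = 0

/-- torus coefficients of χ(x) g(x/h) -/
noncomputable def Kh (χ : E → ℝ) (g : E → ℂ) (h : ℝ) : Z → ℂ :=
  coef (fun x => (χ x : ℂ) * g (h⁻¹ • x))

/-- symbol of order -γ up to J derivatives with constant C -/
def Sym (γ : ℝ) (J : ℕ) (C : ℝ) (g : E → ℂ) : Prop :=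
  ContDiff ℝ ∞ g ∧ ∀ k ≤ J, ∀ y, ‖iteratedFDeriv ℝ k g y‖ ≤ C * (1 + ‖y‖) ^ (-γ - k)

/-- the function with Fourier density x -/
noncomputable def phys (x : E → ℂ) (y : E) : ℂ :=
  ∫ ξ, x ξ * Complex.exp (I * ((inner ℝ ξ y : ℝ) : ℂ))

/-- piecewise constant density of a lattice sequence at scale h -/
noncomputable def Ih (h : ℝ) (c : Z → ℂ) (ξ : E) : ℂ :=
  ((h ^ 12 : ℝ) : ℂ)⁻¹ * c (fun i => ⌊ξ i / h⌋)

/-- potentials at relative remaining time ρ -/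
noncomputable def P1 (m : ℕ) (w : ℝ → ℂ) (ρ : ℝ) (y : E) : ℂ :=
  (ρ : ℂ)⁻¹ * V1 m w (‖y‖ ^ 2 / 4 / ρ)

noncomputable def P2 (m : ℕ) (om : ℝ) (w : ℝ → ℂ) (ρ : ℝ) (y : E) : ℂ :=
  (ρ : ℂ) ^ (-1 + 2 * I * om) * V2 m w (‖y‖ ^ 2 / 4 / ρ)

/-- forced linearised torus system at scale h on the rescaled window [0, T] -/
structure TLin (m : ℕ) (om : ℝ) (w : ℝ → ℂ) (χ1 : E → ℝ) (h T : ℝ)
    (z1 z2 F1 F2 : ℝ → Z → ℂ) : Prop where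
  c1 : ∀ n, ContinuousOn (fun t => z1 t n) (Set.Icc 0 T)
  c2 : ∀ n, ContinuousOn (fun t => z2 t n) (Set.Icc 0 T)
  c3 : ∀ n, ContinuousOn (fun t => F1 t n) (Set.Icc 0 T)
  c4 : ∀ n, ContinuousOn (fun t => F2 t n) (Set.Icc 0 T)
  d1 : ∀ t ∈ Set.Icc 0 T, ∀ n, z1 t n =
    Complex.exp (-I * ((t * (h ^ 2 * nsq n) : ℝ) : ℂ)) * z1 0 n
    - I * ∫ s in (0 : ℝ)..t, Complex.exp (-I * (((t - s) * (h ^ 2 * nsq n) : ℝ) : ℂ)) *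
      (conv (Kh χ1 (P1 m w (1 - s)) h) (z1 s) n + conv (Kh χ1 (P2 m om w (1 - s)) h) (z2 s) n
        + F1 s n)
  d2 : ∀ t ∈ Set.Icc 0 T, ∀ n, z2 t n =
    Complex.exp (I * ((t * (h ^ 2 * nsq n) : ℝ) : ℂ)) * z2 0 n
    + I * ∫ s in (0 : ℝ)..t, Complex.exp (I * (((t - s) * (h ^ 2 * nsq n) : ℝ) : ℂ)) *
      (conv (Kh χ1 (P1 m w (1 - s)) h) (z2 s) n
        + conv (Kh χ1 (fun y => conj (P2 m om w (1 - s) y)) h) (z1 s) n + F2 s n)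

/-- linear window estimate: after removing a symmetry mode the linearised torus flow contracts -/
def LW (m : ℕ) (om : ℝ) (w : ℝ → ℂ) : Prop :=
  ∀ χ χ1 : E → ℝ, Cut χ → Cut χ1 → ∃ (K : ℕ) (M : ℝ), 1 ≤ K ∧ 1 ≤ M ∧ ∀ η : ℝ, 0 < η →
    ∃ ρ0 C h0 : ℝ, 0 < ρ0 ∧ ρ0 ≤ 1 / 4 ∧ 0 ≤ C ∧ 0 < h0 ∧ ∀ h : ℝ, 0 < h → h ≤ h0 →
      ∀ (ζ1 ζ2 : Z → ℂ) (δ : ℝ), 0 ≤ δ → NN K M h ζ1 ≤ ENNReal.ofReal δ →
        NN K M h ζ2 ≤ ENNReal.ofReal δ →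
        ∃ β : Co, ‖β‖ ≤ C * δ ∧ ∀ (z1 z2 F1 F2 : ℝ → Z → ℂ) (B φ : ℝ), 0 ≤ φ →
          TLin m om w χ1 h (1 - ρ0) z1 z2 F1 F2 →
          z1 0 = ζ1 - Kh χ (mode1 m om w β) h → z2 0 = ζ2 - Kh χ (mode2 m om w β) h →
          (∀ t ∈ Set.Icc 0 (1 - ρ0), NN K M h (z1 t) ≤ ENNReal.ofReal B ∧
            NN K M h (z2 t) ≤ ENNReal.ofReal B ∧ NN K M h (F1 t) ≤ ENNReal.ofReal φ ∧
            NN K M h (F2 t) ≤ ENNReal.ofReal φ) →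
          NN K M (h * Real.sqrt ρ0) (z1 (1 - ρ0)) ≤
              ENNReal.ofReal (ρ0 ^ (-(aa m)) * (η * δ + C * φ)) ∧
            NN K M (h * Real.sqrt ρ0) (z2 (1 - ρ0)) ≤
              ENNReal.ofReal (ρ0 ^ (-(aa m)) * (η * δ + C * φ))

end Vale.Agent.P139
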